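import Vale.Agent.P277W.Rows
import Vale.Agent.P277Z.St.Iso
import Mathlib.Analysis.Calculus.InverseFunctionTheorem.FDeriv
import Mathlib.Analysis.Calculus.Implicit

/-!
# P277W: the rows HYP, CHT, OUN, ORD
-/

open scoped Topology
open Vale.Agent.P272.K Vale.Agent.P285.H281.FD Vale.Agent.P277 Vale.Agent.P277Z.St Set Filter
open Function

noncomputable section

namespace Vale.Agent.P277W

theorem locIso_bim {W X : CSp} {q : W.pt → X.pt} {A : Set X.pt} (h : IsBim W X q A) :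
    P277Z.Glc.LocIso W X (q ⁻¹' Aᶜ) q := by
  have h1 : IsOpen (q ⁻¹' Aᶜ) := (isClosed_of_isAn h.an).isOpen_compl.preimage h.cont
  have h2 : ∀ U ⊆ q ⁻¹' Aᶜ, IsOpen U → IsOpen (q '' U) := fun U hU hUo => by
    have e : q '' U = (q '' Uᶜ)ᶜ := by
      ext z
      obtain ⟨x, rfl⟩ := h.surj z
      exact ⟨fun ⟨y, hy, e⟩ ⟨y', hy', e'⟩ => hy' (h.inj y y' (hU hy) (e'.trans e.symm) ▸ hy),
        fun hz => by_contra fun k => hz ⟨x, fun hx => k ⟨x, hx, rfl⟩, rfl⟩⟩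
    rw [e]
    exact (h.cont.isClosedMap _ hUo.isClosed_compl).isOpen_compl
  refine ⟨h1, h.cont.continuousOn, fun x hx x' _ e => (h.inj x x' hx e.symm).symm, h2,
    fun x hx g => ⟨h.holo x g, fun hg => ?_⟩⟩
  obtain ⟨k, k1, k2⟩ := h.iso x _ hx hg
  refine hol_congr k1 ?_
  rw [← P277Z.Glc.map_nhds_of_open h1 h.cont.continuousOn h2 hx]
  exact k2

theorem cht : CHT := by
  rintro W X q A g z h ⟨h1, V, Ω, k, φ, h2, M, h3⟩ hz
  have : Nonempty W.pt := ⟨g z⟩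
  obtain ⟨σ, s1, s2⟩ := (locIso_bim h).exists_inv
  obtain ⟨Ω', M'⟩ := pull_model s2 M
  refine ⟨h1.holMap ⟨h.cont.continuousAt, h.holo _⟩, _, Ω', k, _,
    mem_inter (mem_image_of_mem q hz) ?_, M', ?_⟩
  · rwa [mem_preimage, s1 _ hz]
  · filter_upwards [h3, h1.1.eventually ((locIso_bim h).isOpen.mem_nhds hz)] with w a b
    rw [comp_apply, s1 _ b, a]

theorem Eqn.freq {ζ : Cm 4 → ℂ} {z : Cm 4} (h : Eqn ζ z) : ∃ᶠ w in 𝓝 z, ζ w ≠ 0 :=
  fun h5 => h.2.2 (by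
    rw [EventuallyEq.fderiv_eq (f := fun _ => 0) (h5.mono fun _ => not_not.1), fderiv_fun_const]
    rfl)

theorem ord_lt {F ζ : Cm 4 → ℂ} {z : Cm 4} {k k' : ℤ} (h : Eqn ζ z) (a : Ord F ζ z k)
    (b : Ord F ζ z k') : ¬ k < k' := fun hk => by
  obtain ⟨u, a1, a2, a3⟩ := a
  obtain ⟨u', b1, -, b3⟩ := b
  obtain ⟨n, rfl⟩ : ∃ n : ℕ, k' = k + (n + 1 : ℕ) := ⟨(k' - k - 1).toNat, by omega⟩
  have c : ContinuousAt (fun w => u w - u' w * ζ w ^ (n + 1)) z :=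
    a1.continuousAt.sub (b1.continuousAt.mul (h.1.continuousAt.pow _))
  obtain ⟨w, ⟨w1, w2, w3⟩, w4⟩ := (((Eqn.freq h).and_eventually (a3.and b3)).and_eventually
    (c.eventually_ne (y := 0) (by simpa [h.2.1] using a2))).exists
  refine w4 (mul_right_cancel₀ (zpow_ne_zero k w1) ?_)
  rw [sub_mul, ← w2 w1, w3 w1, zpow_add₀ w1, zpow_natCast]
  ring

theorem oun : OUN := by
  intro F ζ z k h a
  refine ⟨fun k' b => le_antisymm (not_lt.1 (ord_lt h b a)) (not_lt.1 (ord_lt h a b)), ?_⟩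
  obtain ⟨u, a1, a2, a3⟩ := a
  filter_upwards [h.1.eventually_analyticAt, h.1.fderiv.continuousAt.eventually_ne h.2.2,
    a1.eventually_analyticAt, a1.continuousAt.eventually_ne a2, a3.eventually_nhds]
    with w b1 b2 b3 b4 b5 b6 using ⟨⟨b1, b6, b2⟩, u, b3, b4, b5⟩

/-- the lines in a transversal direction meet the hypersurface -/
theorem Eqn.line {ζ : Cm 4 → ℂ} {z : Cm 4} (h : Eqn ζ z) : ∃ v : Cm 4, ∀ P : Cm 4 → Prop,
    (∀ᶠ w in 𝓝 z, P w) → ∀ᶠ y in 𝓝 z, ∃ (w : Cm 4) (t : ℂ), P w ∧ ζ w = 0 ∧ w + t • v = y := by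
  obtain ⟨v₀, hv₀⟩ : ∃ v, fderiv ℂ ζ z v ≠ 0 := by
    by_contra hc
    exact h.2.2 (ContinuousLinearMap.ext fun v => not_not.1 fun e => hc ⟨v, e⟩)
  obtain ⟨v, hv⟩ : ∃ v, fderiv ℂ ζ z v = 1 :=
    ⟨(fderiv ℂ ζ z v₀)⁻¹ • v₀, by rw [map_smul, smul_eq_mul, inv_mul_cancel₀ hv₀]⟩
  refine ⟨v, fun P hP => ?_⟩
  let L : Cm 4 × ℂ →L[ℂ] Cm 4 := ContinuousLinearMap.fst ℂ _ _ +
    (ContinuousLinearMap.snd ℂ (Cm 4) ℂ).smulRight v
  have h1 : HasStrictFDerivAt (fun p : Cm 4 × ℂ => (L p, ζ p.1))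
      (L.prod ((fderiv ℂ ζ z).comp (ContinuousLinearMap.fst ℂ _ _))) (z, 0) :=
    L.hasStrictFDerivAt.prodMk (HasStrictFDerivAt.comp (z, (0 : ℂ)) h.1.hasStrictFDerivAt
      hasStrictFDerivAt_fst)
  have h2 := h1.map_nhds_eq_of_surj (LinearMap.range_eq_top.2 fun b =>
    ⟨(b.1 - (fderiv ℂ ζ z b.1 - b.2) • v, fderiv ℂ ζ z b.1 - b.2), by simp [L, hv]⟩)
  have h3 : (fun p : Cm 4 × ℂ => (L p, ζ p.1)) '' {p | P p.1} ∈ 𝓝 (z, (0 : ℂ)) := by
    have := image_mem_map (m := fun p : Cm 4 × ℂ => (L p, ζ p.1))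
      ((continuous_fst.tendsto (z, (0 : ℂ))).eventually hP)
    rw [h2] at this
    simpa [L, h.2.1] using this
  filter_upwards [(Continuous.prodMk_left (0 : ℂ)).continuousAt.eventually_mem h3] with y hy
  obtain ⟨p, p1, p2⟩ := hy
  exact ⟨p.1, p.2, p1, congrArg Prod.snd p2, congrArg Prod.fst p2⟩

theorem dim_line {f : Cm 2 → Cm 4} (c : Cm 2) (r : ℝ) (v : Cm 4)
    (hf : ∀ p ∈ Metric.ball c r, AnalyticAt ℂ f p) :
    dimH ((fun p : Cm 2 × ℂ => f p.1 + p.2 • v) '' (Metric.ball c r ×ˢ univ)) ≤ 6 := by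
  have h1 : ContDiffOn ℝ 1 (fun p : Cm 2 × ℂ => f p.1 + p.2 • v) (Metric.ball c r ×ˢ univ) :=
    fun p hp => by
      have h5 : AnalyticAt ℂ (fun p : Cm 2 × ℂ => f p.1 + p.2 • v) p :=
        ((hf _ hp.1).comp analyticAt_fst).add (analyticAt_snd.smul analyticAt_const)
      exact (h5.restrictScalars (𝕜 := ℝ)).contDiffAt.contDiffWithinAt
  refine (h1.dimH_image_le ((convex_ball c r).prod convex_univ) Subset.rfl).trans
    ((dimH_mono (subset_univ _)).trans ?_)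
  rw [Real.dimH_univ_eq_finrank, Module.finrank_prod, finrank_Cm, Complex.finrank_real_complex]
  norm_num

theorem hyp : HYP := by
  rintro W g z ζ S ⟨h1, V, Ω, k, φ, h2, M, h3⟩ hζ hS hc
  obtain ⟨v, hv⟩ := Eqn.line hζ
  obtain ⟨κ, hκ, c, r, γ, -, -, hγ, hV, hcov⟩ := (hS.mono (inter_subset_left (t := V))).refine
    (U := fun _ : Unit => V) (fun _ => M.isOpen) fun y hy => mem_iUnion.2 ⟨(), hy.2⟩
  have h4 : dimH (⋃ j, (fun p : Cm 2 × ℂ => φ (γ j p.1) + p.2 • v) ''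
      (Metric.ball (c j) (r j) ×ˢ univ)) < Module.finrank ℝ (Cm 4) := by
    rw [dimH_iUnion]
    refine lt_of_le_of_lt (iSup_le fun j =>
      dim_line (f := fun p => φ (γ j p)) _ _ v fun p hp => ?_) ?_
    · have hp' := Metric.ball_subset_closedBall hp
      exact AnalyticAt.pi fun a => (hγ j _ hp').analyticAt (M.isCoord.hol a _ (hV j _ hp'))
    · rw [finrank_Cm]
      norm_num
  obtain ⟨y, y1, w, t, ⟨w1, w2, w3⟩, w4, rfl⟩ := (dense_compl_of_dimH_lt_finrank h4).inter_nhds_nonempty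
    (hv _ (hc.and (h3.and (h1.1.eventually (M.isOpen.mem_nhds h2)))))
  obtain ⟨j, p, hp, e⟩ := mem_iUnion.1 (hcov ⟨not_not.1 fun e => w1 ⟨w4, e⟩, w3⟩)
  exact y1 (mem_iUnion.2 ⟨j, (p, t), ⟨hp, trivial⟩, by simp only [e, w2]⟩)

/-- two different prime divisors -/
theorem THIN.ne (hT : THIN) {X : CSp} (hX : IsNormal 4 X) {P Q : Set X.pt} (hP : IsPrime X P)
    (hQ : IsPrime X Q) (h : P ≠ Q) : ¬ P ⊆ Q := fun e =>
  hP.dim' ((hT X Q P hX hQ hP.an fun e' => h (e.antisymm e')).mono fun _ hx => ⟨e hx, hx⟩)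

theorem ord (hZ : ZB) (hT : THIN) : ORD := by
  classical
  rintro W X q A C E a h hW hX hb ⟨k, ⟨i, g, z, ζ, h1, h2, h3, h4, h5⟩, rfl⟩
  obtain ⟨A', b, hA⟩ := hZ W X q A hW hX hb
  have hq : ∀ x, HolMap W X q x := fun x => ⟨b.cont.continuousAt, b.holo x⟩
  have : Nonempty W.pt := ⟨g z⟩
  let Q : PD X := ⟨q '' E.1, h⟩
  let t : ↥(insert Q C.D.support) := ⟨Q, Finset.mem_insert_self _ _⟩
  have hc := C.enl (Subtype.val : ↥(insert Q C.D.support) → PD X) Subtype.val_injective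
    fun P hP => ⟨⟨P, Finset.mem_insert_of_mem hP⟩, rfl⟩
  have d1 := hT W _ _ hW E.2 (b.an.preimage hq) fun e => h.dim' (hA.mono (image_subset_iff.2 e))
  have d2 := dimLe_iUnion fun u : {u : ↥(insert Q C.D.support) // u ≠ t} =>
    hT W _ _ hW E.2 (u.1.1.2.an.preimage hq) fun e => hT.ne hX h u.1.1.2
      (fun e' => u.2 (Subtype.ext (Subtype.ext e'.symm))) (image_subset_iff.2 e)
  obtain ⟨w, ⟨w1, w2⟩, w3, w4, w5, w6⟩ := ((hyp W g z ζ _ h1 h3 (d1.union d2)).and_eventually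
    (h1.eventually.and (h4.eventually_nhds.and ((oun _ _ _ _ h3 h5).2.and
      (((hq _).1.comp h1.1.1).eventually ((C.cart.lb.isOpen i).mem_nhds h2)))))).exists
  have hE := w4.self_of_nhds.2 w1
  have hw : q (g w) ∉ A' := fun e => w2 (.inl ⟨hE, e⟩)
  have c : ContinuousAt (fun w => q (g w)) w := (hq _).1.comp w3.1.1
  have := hc.ord t i _ w ζ (cht W X q A' g w b w3 hw) w6 (w5 w1).1 (eventually_all.2 fun u => ?_)
  · rw [(oun _ _ _ _ (w5 w1).1 (w5 w1).2).1 _ this]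
  by_cases e : u = t
  · filter_upwards [w4, c.eventually ((isClosed_of_isAn b.an).isOpen_compl.mem_nhds hw)] with y y1 y2
    rw [e, ← y1]
    exact ⟨fun ⟨x, x1, x2⟩ => ⟨rfl, b.inj _ x y2 x2 ▸ x1⟩, fun x => ⟨_, x.2, rfl⟩⟩
  · filter_upwards [c.eventually ((isClosed_of_isAn u.1.2.an).isOpen_compl.mem_nhds
      fun e' => w2 (.inr (mem_iUnion.2 ⟨⟨u, e⟩, hE, e'⟩)))] with y y1
    exact iff_of_false y1 fun x => e x.1

end Vale.Agent.P277W
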